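import Crest.Agent.Lib.Ryser.Design

/-!
# Building a `Design` from a selection (row 34, Part D, deterministic)

`Sel F ι` records: the class points, the active points, the options `Vpat z g`, the existence of a safe
option for every active point outside the classes, the `Y`-events (D4', D5, D5'), and the conditions E1, E2, SL.
`Sel.toDesign` is the `Design` (`chosen actives`, `grp`, `gad` are selected here).
-/

set_option autoImplicit false

namespace Crest.Agent.Lib.Ryser

open Finset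

variable {F : Type} [Field F] [Fintype F] [DecidableEq F]
variable {ι : Type} [Fintype ι] [DecidableEq ι]

section Defs

variable (p : Fin 4 → Option F) (Cls Zact : Finset (Pt F))

/-- The classes (indices of the four parts `p`) hit by the line `l`. -/
def Khit (l : Ln F) : Finset (Fin 4) := univ.filter (fun j => ptOn l (p j) ∈ Cls)

/-- `l` contains no active point other than `z`. -/
def Zclean (z : Pt F) (l : Ln F) : Prop := ∀ x ∈ Zact, OnLn x l → x = z

/-- Gadget lines of type `j` at `z` for the four parts `p`. -/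
def gadOf (z : Pt F) (j : Fin 4) : Finset (Ln F) :=
  (linesThrough z).filter (fun l => Khit p Cls l = {j, j + 1})

/-- The pattern `V(z, g)`, where `p = cl g`. -/
def Vpat (z : Pt F) : Prop :=
  (∀ j, z.1 ≠ p j) ∧
  (∀ l : Ln F, OnLn z l →
    (Khit p Cls l).card ≤ 2 ∧
    ((Khit p Cls l).card = 2 → (∃ j, Khit p Cls l = {j, j + 1}) ∧ Zclean Zact z l)) ∧
  ∀ j, (gadOf p Cls z j).card = 3

/-- A safe option for `z`. -/
structure Safe (z : Pt F) : Prop where
  /-- the pattern -/
  pat : Vpat p Cls Zact z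
  /-- (c1) gadget lines contain no class point off the four parts -/
  c1 : ∀ j, ∀ l ∈ gadOf p Cls z j, ∀ x ∈ Cls, OnLn x l → ∃ k, x.1 = p k
  /-- (c2) no other active of the part has the pattern -/
  c2 : ∀ y ∈ Zact, y ≠ z → y.1 = z.1 → ¬ Vpat p Cls Zact y
  /-- (c3) no two other collinear actives have the pattern -/
  c3 : ∀ y ∈ Zact, ∀ y' ∈ Zact, y ≠ z → y' ≠ z → y ≠ y' → ∀ l : Ln F, OnLn z l → OnLn y l → OnLn y' l →
    ¬ (Vpat p Cls Zact y ∧ Vpat p Cls Zact y')
  /-- (c4) a line from `z` to a class point of the group contains no other active with the pattern -/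
  c4 : ∀ l : Ln F, OnLn z l → (Khit p Cls l).Nonempty → ∀ y ∈ Zact, y ≠ z → OnLn y l →
    ¬ Vpat p Cls Zact y

end Defs

open Classical in
/-- All the data and properties needed to build a `Design`. -/
structure Sel (F : Type) [Field F] [Fintype F] [DecidableEq F]
    (ι : Type) [Fintype ι] [DecidableEq ι] where
  cl : ι → Fin 4 → Option F
  Cls : Finset (Pt F)
  Zact : Finset (Pt F)
  R : ℕ
  rho : ℕ
  g₀ : ι
  cl_inj : ∀ g j g' j', cl g j = cl g' j' → g = g' ∧ j = j'
  cls_special : ∀ x ∈ Cls, ∃ g j, x.1 = cl g j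
  /-- a normal part carries exactly one active point -/
  zact_normal : ∀ i, (∀ g j, i ≠ cl g j) → (Zact.filter (fun z => z.1 = i)).card = 1
  /-- a special part has at least as many active points outside the class points as class points -/
  zact_special : ∀ g j, (Cls.filter (fun z => z.1 = cl g j)).card ≤
    ((Zact \ Cls).filter (fun z => z.1 = cl g j)).card
  cls_nonempty : ∀ g j, (Cls.filter (fun z => z.1 = cl g j)).Nonempty
  /-- every active point outside the classes has a safe option -/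
  safe : ∀ z ∈ Zact \ Cls, ∃ g, Safe (cl g) Cls Zact z
  /-- D4' -/
  Y1 : ∀ l : Ln F, (univ.filter (fun g : ι => ∃ y ∈ Zact, OnLn y l ∧ Vpat (cl g) Cls Zact y ∧
    (∀ j, l ∉ gadOf (cl g) Cls y j) ∧ (Khit (cl g) Cls l).Nonempty)).card ≤ 4
  /-- D5 -/
  Y2 : ∀ (p : Pt F) (l : Ln F), ¬ OnLn p l →
    (univ.filter (fun g : ι => ∃ z ∈ Zact, OnLn z l ∧ Vpat (cl g) Cls Zact z ∧
      ∃ j, ∃ l' ∈ gadOf (cl g) Cls z j, OnLn p l')).card ≤ 4
  /-- D5' -/
  Y3 : ∀ (p : Pt F) (g' : ι) (j' : Fin 4), p.1 ≠ cl g' j' →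
    (univ.filter (fun g : ι => ∃ z ∈ Zact, z.1 = cl g' j' ∧ Vpat (cl g) Cls Zact z ∧
      ∃ j, ∃ l' ∈ gadOf (cl g) Cls z j, OnLn p l')).card ≤ 6
  /-- E2 -/
  ball_line : ∀ l, ((Cls ∪ Zact).filter (fun x => OnLn x l)).card ≤ R
  ball_part : ∀ i, ((Cls ∪ Zact).filter (fun x => x.1 = i)).card ≤ R
  /-- E1 -/
  rho_lb : ∀ u : Pt F, rho ≤
    ((linesThrough u).filter (fun l => ∀ x ∈ Cls ∪ Zact, OnLn x l → x = u)).card
  R_lt : R + 2 ≤ rho
  /-- SL -/
  stability : ∀ S : Finset (Pt F), S.card ≤ Fintype.card F →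
    (∀ l : Ln F, (∀ x ∈ Cls ∪ Zact, ¬ OnLn x l) → ∃ x ∈ S, OnLn x l) →
    (∃ l : Ln F, ∀ x, OnLn x l → x ∉ Cls ∪ Zact → x ∈ S) ∨
    (∃ i : Option F, ∀ y, (i, y) ∉ Cls ∪ Zact → (i, y) ∈ S)

namespace Sel

variable (A : Sel F ι)

lemma fin4_ne_succ (j : Fin 4) : j ≠ j + 1 := by revert j; decide

lemma card_pair (j : Fin 4) : ({j, j + 1} : Finset (Fin 4)).card = 2 :=
  Finset.card_pair (fin4_ne_succ j)

/-- The chosen active points on each part. -/
lemma exists_sel : ∃ sel : Option F → Finset (Pt F), ∀ i,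
    sel i ⊆ (A.Zact \ A.Cls).filter (fun z => z.1 = i) ∧
    ((∀ g j, i ≠ A.cl g j) → (sel i).card = 1) ∧
    (∀ g j, i = A.cl g j → (sel i).card = (A.Cls.filter (fun z => z.1 = i)).card) := by
  classical
  have h : ∀ i : Option F, ∃ s : Finset (Pt F), s ⊆ (A.Zact \ A.Cls).filter (fun z => z.1 = i) ∧
      ((∀ g j, i ≠ A.cl g j) → s.card = 1) ∧
      (∀ g j, i = A.cl g j → s.card = (A.Cls.filter (fun z => z.1 = i)).card) := by
    intro i
    by_cases hi : ∀ g j, i ≠ A.cl g j
    · refine ⟨(A.Zact \ A.Cls).filter (fun z => z.1 = i), subset_rfl, fun _ => ?_, fun g j h => absurd h (hi g j)⟩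
      have h1 := A.zact_normal i hi
      have h2 : (A.Zact \ A.Cls).filter (fun z => z.1 = i) = A.Zact.filter (fun z => z.1 = i) := by
        ext x
        simp only [mem_filter, mem_sdiff]
        constructor
        · rintro ⟨⟨h3, _⟩, h4⟩
          exact ⟨h3, h4⟩
        · rintro ⟨h3, h4⟩
          refine ⟨⟨h3, fun h5 => ?_⟩, h4⟩
          obtain ⟨g, j, h6⟩ := A.cls_special x h5
          exact hi g j (h4 ▸ h6)
      rw [h2, h1]
    · push Not at hi
      obtain ⟨g, j, rfl⟩ := hi
      obtain ⟨s, hs1, hs2⟩ := Finset.exists_subset_card_eq (A.zact_special g j)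
      refine ⟨s, hs1, fun h => absurd rfl (h g j), fun g' j' _ => hs2⟩
  choose sel hsel using h
  exact ⟨sel, hsel⟩

/-- The chosen active points. -/
noncomputable def sel : Option F → Finset (Pt F) := A.exists_sel.choose

lemma sel_spec (i : Option F) : A.sel i ⊆ (A.Zact \ A.Cls).filter (fun z => z.1 = i) ∧
    ((∀ g j, i ≠ A.cl g j) → (A.sel i).card = 1) ∧
    (∀ g j, i = A.cl g j → (A.sel i).card = (A.Cls.filter (fun z => z.1 = i)).card) :=
  A.exists_sel.choose_spec i

/-- All chosen active points. -/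
noncomputable def Act : Finset (Pt F) := univ.biUnion A.sel

lemma mem_Act {z : Pt F} : z ∈ A.Act ↔ z ∈ A.sel z.1 := by
  simp only [Act, mem_biUnion, mem_univ, true_and]
  constructor
  · rintro ⟨i, hi⟩
    have := mem_filter.1 ((A.sel_spec i).1 hi)
    rw [this.2]
    exact hi
  · intro h
    exact ⟨_, h⟩

lemma Act_sub {z : Pt F} (h : z ∈ A.Act) : z ∈ A.Zact \ A.Cls :=
  (mem_filter.1 ((A.sel_spec z.1).1 (A.mem_Act.1 h))).1

lemma Act_filter (i : Option F) : A.Act.filter (fun z => z.1 = i) = A.sel i := by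
  ext z
  simp only [mem_filter, A.mem_Act]
  constructor
  · rintro ⟨h1, rfl⟩
    exact h1
  · intro h1
    have := (mem_filter.1 ((A.sel_spec i).1 h1)).2
    exact ⟨this ▸ h1, this⟩

open Classical in
/-- The group of a chosen active. -/
noncomputable def grp (z : Pt F) : ι :=
  if h : ∃ g, Safe (A.cl g) A.Cls A.Zact z then h.choose else A.g₀

lemma grp_safe {z : Pt F} (hz : z ∈ A.Act) : Safe (A.cl (A.grp z)) A.Cls A.Zact z := by
  classical
  have h := A.safe z (A.Act_sub hz)
  rw [grp, dif_pos h]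
  exact h.choose_spec

/-- Gadget lines. -/
noncomputable def gad (z : Pt F) (j : Fin 4) : Finset (Ln F) := gadOf (A.cl (A.grp z)) A.Cls z j

lemma mem_gad {z : Pt F} {j : Fin 4} {l : Ln F} :
    l ∈ A.gad z j ↔ OnLn z l ∧ Khit (A.cl (A.grp z)) A.Cls l = {j, j + 1} := by
  simp [gad, gadOf, mem_linesThrough]

lemma Act_mem_Zact {z : Pt F} (h : z ∈ A.Act) : z ∈ A.Zact := (mem_sdiff.1 (A.Act_sub h)).1

lemma clean_of_gad {z : Pt F} (hz : z ∈ A.Act) {j : Fin 4} {l : Ln F} (hl : l ∈ A.gad z j) :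
    Zclean A.Zact z l := by
  obtain ⟨h1, h2⟩ := A.mem_gad.1 hl
  have h3 := ((A.grp_safe hz).pat.2.1 l h1).2
  rw [h2, card_pair] at h3
  have h4 := (h3 rfl).2
  exact h4

lemma mem_Khit {l : Ln F} {g : ι} {k : Fin 4} :
    k ∈ Khit (A.cl g) A.Cls l ↔ ptOn l (A.cl g k) ∈ A.Cls := by
  simp [Khit]

/-- The `Design` defined by a selection. -/
noncomputable def toDesign : Design F ι where
  cl := A.cl
  Cls := A.Cls
  Act := A.Act
  Zall := A.Cls ∪ A.Zact
  grp := A.grp
  gad := A.gad
  R := A.R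
  rho := A.rho
  cl_inj := A.cl_inj
  cls_sub := subset_union_left
  act_sub := fun _ hz => mem_union_right _ (A.Act_mem_Zact hz)
  act_cls := by
    rw [Finset.disjoint_left]
    intro z hz
    exact (mem_sdiff.1 (A.Act_sub hz)).2
  cls_special := A.cls_special
  act_normal := by
    intro i hi
    rw [A.Act_filter]
    exact (A.sel_spec i).2.1 hi
  act_special := by
    intro g j
    rw [A.Act_filter]
    exact (A.sel_spec _).2.2 g j rfl
  cls_nonempty := A.cls_nonempty
  gad_through := fun z _ j l hl => (A.mem_gad.1 hl).1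
  gad_card := fun z hz j => (A.grp_safe hz).pat.2.2 j
  gad_cls := by
    intro z _ j l hl
    have h2 := (A.mem_gad.1 hl).2
    constructor
    · have : j ∈ Khit (A.cl (A.grp z)) A.Cls l := by rw [h2]; simp
      exact A.mem_Khit.1 this
    · have : j + 1 ∈ Khit (A.cl (A.grp z)) A.Cls l := by rw [h2]; simp
      exact A.mem_Khit.1 this
  gad_clean := by
    intro z hz j l hl x hx hxl
    rcases mem_union.1 hx with hx | hx
    · -- a class point
      obtain ⟨k, hk⟩ := (A.grp_safe hz).c1 j l hl x hx hxl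
      have h2 := (A.mem_gad.1 hl).2
      have h3 : x = ptOn l (A.cl (A.grp z) k) := by
        rw [← hk]; exact eq_ptOn_of_onLn hxl
      have h4 : k ∈ Khit (A.cl (A.grp z)) A.Cls l := A.mem_Khit.2 (h3 ▸ hx)
      rw [h2] at h4
      simp only [mem_insert, mem_singleton] at h4
      rcases h4 with rfl | rfl
      · exact Or.inr (Or.inl hk)
      · exact Or.inr (Or.inr hk)
    · exact Or.inl (A.clean_of_gad hz hl x hx hxl)
  grp_part := by
    intro z hz y hy hne hzy he
    have h1 := (A.grp_safe hz).c2 y (A.Act_mem_Zact hy) (Ne.symm hne) hzy.symm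
    rw [he] at h1
    exact h1 (A.grp_safe hy).pat
  grp_line := by
    intro l g
    by_contra hlt
    push Not at hlt
    obtain ⟨a, ha, b, hb, c, hc, hab, hac, hbc⟩ := Finset.two_lt_card.1 hlt
    obtain ⟨ha1, ha2, ha3⟩ := mem_filter.1 ha
    obtain ⟨hb1, hb2, hb3⟩ := mem_filter.1 hb
    obtain ⟨hc1, hc2, hc3⟩ := mem_filter.1 hc
    have hs := (A.grp_safe ha1).c3 b (A.Act_mem_Zact hb1) c (A.Act_mem_Zact hc1) (Ne.symm hab)
      (Ne.symm hac) hbc l ha2 hb2 hc2
    rw [ha3] at hs
    apply hs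
    constructor
    · have := (A.grp_safe hb1).pat
      rwa [hb3] at this
    · have := (A.grp_safe hc1).pat
      rwa [hc3] at this
  nongad_hits := by
    intro z hz l hzl hng
    have h1 := ((A.grp_safe hz).pat.2.1 l hzl)
    by_contra hlt
    push Not at hlt
    have h2 : (Khit (A.cl (A.grp z)) A.Cls l).card = 2 := by
      have h3 : (Khit (A.cl (A.grp z)) A.Cls l).card ≤ 2 := h1.1
      have h4 : 1 < (Khit (A.cl (A.grp z)) A.Cls l).card := hlt
      omega
    obtain ⟨j, hj⟩ := (h1.2 h2).1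
    exact hng j (A.mem_gad.2 ⟨hzl, hj⟩)
  free_alone := by
    intro z hz l hzl _ hk y hy hyl hne he
    obtain ⟨k, hk⟩ := hk
    have h1 := (A.grp_safe hz).c4 l hzl ⟨k, A.mem_Khit.2 hk⟩ y (A.Act_mem_Zact hy) hne hyl
    rw [← he] at h1
    exact h1 (A.grp_safe hy).pat
  free_count := by
    classical
    intro l
    by_cases hgad : ∃ z ∈ A.Act, OnLn z l ∧ ∃ j, l ∈ A.gad z j
    · -- a gadget line contains only one active
      obtain ⟨z, hz, hzl, j, hj⟩ := hgad
      have hsub : A.Act.filter (fun y => OnLn y l ∧ ∃ k, ptOn l (A.cl (A.grp y) k) ∈ A.Cls) ⊆ {z} := by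
        intro y hy
        obtain ⟨h1, h2, _⟩ := mem_filter.1 hy
        exact mem_singleton.2 (A.clean_of_gad hz hj y (A.Act_mem_Zact h1) h2)
      have := card_le_card hsub
      rw [card_singleton] at this
      omega
    · push Not at hgad
      refine le_trans ?_ (A.Y1 l)
      apply Finset.card_le_card_of_injOn A.grp
      · intro z hz
        obtain ⟨h1, h2, k, h3⟩ := mem_filter.1 hz
        refine mem_filter.2 ⟨mem_univ _, z, A.Act_mem_Zact h1, h2, (A.grp_safe h1).pat, ?_, ⟨k, A.mem_Khit.2 h3⟩⟩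
        intro j
        exact hgad z h1 h2 j
      · intro z hz y hy he
        obtain ⟨h1, h2, k, h3⟩ := mem_filter.1 hz
        obtain ⟨h1', h2', k', h3'⟩ := mem_filter.1 hy
        by_contra hne
        have h4 := (A.grp_safe h1).c4 l h2 ⟨k, A.mem_Khit.2 h3⟩ y (A.Act_mem_Zact h1') (Ne.symm hne) h2'
        rw [he] at h4
        exact h4 (A.grp_safe h1').pat
  pt_line_count := by
    classical
    intro p l hp
    have hsub : (A.Act.filter (fun z => OnLn z l ∧ ∃ j, ∃ l' ∈ A.gad z j, OnLn p l')).image A.grp ⊆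
        univ.filter (fun g : ι => ∃ z ∈ A.Zact, OnLn z l ∧ Vpat (A.cl g) A.Cls A.Zact z ∧
          ∃ j, ∃ l' ∈ gadOf (A.cl g) A.Cls z j, OnLn p l') := by
      intro g hg
      obtain ⟨z, hz, rfl⟩ := mem_image.1 hg
      obtain ⟨h1, h2, h3⟩ := mem_filter.1 hz
      exact mem_filter.2 ⟨mem_univ _, z, A.Act_mem_Zact h1, h2, (A.grp_safe h1).pat, h3⟩
    have hY := (card_le_card hsub).trans (A.Y2 p l hp)
    have hfib : ∀ g ∈ (A.Act.filter (fun z => OnLn z l ∧ ∃ j, ∃ l' ∈ A.gad z j, OnLn p l')).image A.grp,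
        ((A.Act.filter (fun z => OnLn z l ∧ ∃ j, ∃ l' ∈ A.gad z j, OnLn p l')).filter
          (fun z => A.grp z = g)).card ≤ 2 := by
      intro g _
      by_contra hlt
      push Not at hlt
      obtain ⟨a, ha, b, hb, c, hc, hab, hac, hbc⟩ := Finset.two_lt_card.1 hlt
      obtain ⟨ha0, ha3⟩ := mem_filter.1 ha
      obtain ⟨hb0, hb3⟩ := mem_filter.1 hb
      obtain ⟨hc0, hc3⟩ := mem_filter.1 hc
      obtain ⟨ha1, ha2, _⟩ := mem_filter.1 ha0
      obtain ⟨hb1, hb2, _⟩ := mem_filter.1 hb0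
      obtain ⟨hc1, hc2, _⟩ := mem_filter.1 hc0
      have hs := (A.grp_safe ha1).c3 b (A.Act_mem_Zact hb1) c (A.Act_mem_Zact hc1) (Ne.symm hab)
        (Ne.symm hac) hbc l ha2 hb2 hc2
      rw [ha3] at hs
      apply hs
      constructor
      · have := (A.grp_safe hb1).pat
        rwa [hb3] at this
      · have := (A.grp_safe hc1).pat
        rwa [hc3] at this
    have hmul := Finset.card_le_mul_card_image _ 2 hfib
    calc _ ≤ 2 * _ := hmul
      _ ≤ 2 * 4 := Nat.mul_le_mul_left _ hY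
      _ = 8 := rfl
  pt_part_count := by
    classical
    intro p i hp
    by_cases hi : ∀ g j, i ≠ A.cl g j
    · have h1 := (A.sel_spec i).2.1 hi
      refine le_trans (card_le_card ?_) (show (A.sel i).card ≤ 6 by omega)
      intro z hz
      obtain ⟨h2, h3, _⟩ := mem_filter.1 hz
      rw [← A.Act_filter i]
      exact mem_filter.2 ⟨h2, h3⟩
    · push Not at hi
      obtain ⟨g', j', rfl⟩ := hi
      refine le_trans ?_ (A.Y3 p g' j' hp)
      apply Finset.card_le_card_of_injOn A.grp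
      · intro z hz
        obtain ⟨h1, h2, h3⟩ := mem_filter.1 hz
        exact mem_filter.2 ⟨mem_univ _, z, A.Act_mem_Zact h1, h2, (A.grp_safe h1).pat, h3⟩
      · intro z hz y hy he
        obtain ⟨h1, h2, _⟩ := mem_filter.1 hz
        obtain ⟨h1', h2', _⟩ := mem_filter.1 hy
        by_contra hne
        have h4 := (A.grp_safe h1).c2 y (A.Act_mem_Zact h1') (Ne.symm hne) (h2'.trans h2.symm)
        rw [show A.grp z = A.grp y from he] at h4
        exact h4 (A.grp_safe h1').pat
  ball_line := A.ball_line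
  ball_part := A.ball_part
  rho_lb := A.rho_lb
  R_lt := A.R_lt
  stability := A.stability

end Sel

end Crest.Agent.Lib.Ryser
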