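import Crest.Agent.Lib.Ryser.Builder
import Crest.Agent.Lib.Ryser.Prob

/-!
# Group-level pattern (row 34, Part D)

One group: four injective parts `p : Fin 4 → Option F`, class balls `CB T = Fin 4 × Fin T`,
positions `κ : CB T → F` (uniform, `Crest.Agent.Ryser.Pr`), class points `classPts p κ`,
pattern `VG p Zact z κ = Vpat p (classPts p κ) Zact z` (see `Builder.lean`).
The pattern of a group in the whole design only depends on its own balls (`Vpat_eq_VG`).
-/

set_option autoImplicit false

namespace Crest.Agent.Lib.Ryser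

open Finset

variable {F : Type} [Field F] [Fintype F] [DecidableEq F]

/-- Class balls of one group. -/
abbrev CB (T : ℕ) := Fin 4 × Fin T

/-- The class points of a group. -/
def classPts {T : ℕ} (p : Fin 4 → Option F) (κ : CB T → F) : Finset (Pt F) :=
  univ.image (fun c : CB T => ((p c.1, κ c) : Pt F))

lemma mem_classPts {T : ℕ} {p : Fin 4 → Option F} {κ : CB T → F} {x : Pt F} :
    x ∈ classPts p κ ↔ ∃ c : CB T, ((p c.1, κ c) : Pt F) = x := by
  simp [classPts]

/-- The pattern of a group at the point `z`. -/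
def VG {T : ℕ} (p : Fin 4 → Option F) (Zact : Finset (Pt F)) (z : Pt F) (κ : CB T → F) : Prop :=
  Vpat p (classPts p κ) Zact z

/-- `Khit` only sees the class points on the four parts. -/
lemma Khit_congr {p : Fin 4 → Option F} {C C' : Finset (Pt F)}
    (h : ∀ j y, ((p j, y) : Pt F) ∈ C ↔ ((p j, y) : Pt F) ∈ C') (l : Ln F) :
    Khit p C l = Khit p C' l := by
  unfold Khit
  apply filter_congr
  intro j _
  exact h j _

lemma gadOf_congr {p : Fin 4 → Option F} {C C' : Finset (Pt F)}
    (h : ∀ j y, ((p j, y) : Pt F) ∈ C ↔ ((p j, y) : Pt F) ∈ C') (z : Pt F) (j : Fin 4) :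
    gadOf p C z j = gadOf p C' z j := by
  unfold gadOf
  apply filter_congr
  intro l _
  rw [Khit_congr h]

lemma Vpat_congr {p : Fin 4 → Option F} {C C' : Finset (Pt F)} (Zact : Finset (Pt F))
    (h : ∀ j y, ((p j, y) : Pt F) ∈ C ↔ ((p j, y) : Pt F) ∈ C') (z : Pt F) :
    Vpat p C Zact z ↔ Vpat p C' Zact z := by
  unfold Vpat
  simp_rw [Khit_congr h, gadOf_congr h]

/-- In the whole design the pattern of the group `g` only depends on its own balls. -/
lemma Vpat_eq_VG {ι : Type} [Fintype ι] {T : ℕ} (cl : ι → Fin 4 → Option F)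
    (hcl : ∀ g j g' j', cl g j = cl g' j' → g = g' ∧ j = j') (κ : ι → CB T → F) (g : ι)
    (Cls Zact : Finset (Pt F)) (hCls : ∀ x, x ∈ Cls ↔ ∃ g', x ∈ classPts (cl g') (κ g')) (z : Pt F) :
    Vpat (cl g) Cls Zact z ↔ VG (cl g) Zact z (κ g) := by
  apply Vpat_congr
  intro j y
  rw [hCls]
  constructor
  · rintro ⟨g', hg'⟩
    obtain ⟨c, hc⟩ := mem_classPts.1 hg'
    have h1 : cl g' c.1 = cl g j := congrArg Prod.fst hc
    obtain ⟨rfl, rfl⟩ := hcl _ _ _ _ h1
    exact hg'
  · intro h
    exact ⟨g, h⟩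

end Crest.Agent.Lib.Ryser
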