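import Crest.Agent.Lib.Ryser.Prob

/-!
# Parity upper bounds: abstract exponential moment (row 34, Part D)

Given sets `P u e ⊆ X` (for points `u` and even balls `e`), with small pairwise intersections, the
exponential moment of the number of matched balls is controlled; pinned balls cost a factor `1/|X|` each.
-/

open Finset BigOperators

namespace Crest.Agent.Ryser

namespace PatUB

section OneFactor

variable {X U : Type*} [Fintype X] [DecidableEq X] [Nonempty X] [Fintype U] [DecidableEq U]

/-- One-coordinate moment. -/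
lemma one_factor (S : U → Finset X) (s K : ℕ) (hs : ∀ u, (S u).card ≤ s)
    (hK : ∀ u v, u ≠ v → (S u ∩ S v).card ≤ K) (lam : ℝ) (hlam : 1 ≤ lam) :
    Ex (fun y : X => lam ^ (univ.filter fun u => y ∈ S u).card) ≤
      1 + (((Fintype.card U : ℝ) * s) * lam +
        (((Fintype.card U : ℝ) ^ 2 * K) * lam ^ (Fintype.card U))) / Fintype.card X := by
  classical
  have hlam0 : 0 ≤ lam := by linarith
  set N := Fintype.card U with hN
  have hX : (0:ℝ) < Fintype.card X := by exact_mod_cast Fintype.card_pos
  have hpt : ∀ y : X, lam ^ (univ.filter fun u => y ∈ S u).card ≤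
      1 + (∑ u, (if y ∈ S u then lam else 0)) +
        ∑ u, ∑ v, (if u ≠ v ∧ y ∈ S u ∩ S v then lam ^ N else 0) := by
    intro y
    have hA : 0 ≤ ∑ u, (if y ∈ S u then lam else 0) :=
      Finset.sum_nonneg fun u _ => by split_ifs <;> simp [hlam0]
    have hB : 0 ≤ ∑ u, ∑ v, (if u ≠ v ∧ y ∈ S u ∩ S v then lam ^ N else 0) :=
      Finset.sum_nonneg fun u _ => Finset.sum_nonneg fun v _ => by
        split_ifs <;> first | exact pow_nonneg hlam0 _ | exact le_refl _
    rcases Nat.lt_or_ge (univ.filter fun u => y ∈ S u).card 2 with hc | hc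
    · interval_cases hcc : (univ.filter fun u => y ∈ S u).card
      · simp only [pow_zero]; linarith
      · obtain ⟨u, hu⟩ := Finset.card_pos.1 (by omega : 0 < (univ.filter fun u => y ∈ S u).card)
        have hu' : y ∈ S u := (Finset.mem_filter.1 hu).2
        have : lam ≤ ∑ u, (if y ∈ S u then lam else 0) := by
          have := Finset.single_le_sum (f := fun u => if y ∈ S u then lam else 0)
            (fun u _ => by split_ifs <;> simp [hlam0]) (Finset.mem_univ u)
          simpa [hu'] using this
        simp only [pow_one]; linarith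
    · obtain ⟨u, hu, v, hv, huv⟩ := Finset.one_lt_card.1 (by omega : 1 < (univ.filter fun u => y ∈ S u).card)
      have hu' : y ∈ S u := (Finset.mem_filter.1 hu).2
      have hv' : y ∈ S v := (Finset.mem_filter.1 hv).2
      have h1 : lam ^ N ≤ ∑ u, ∑ v, (if u ≠ v ∧ y ∈ S u ∩ S v then lam ^ N else 0) := by
        have h2 : ∀ u : U, 0 ≤ ∑ v, (if u ≠ v ∧ y ∈ S u ∩ S v then lam ^ N else 0) :=
          fun u => Finset.sum_nonneg fun v _ => by
            split_ifs <;> first | exact pow_nonneg hlam0 _ | exact le_refl _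
        have h3 := Finset.single_le_sum (f := fun u => ∑ v, (if u ≠ v ∧ y ∈ S u ∩ S v then lam ^ N else 0))
          (fun u _ => h2 u) (Finset.mem_univ u)
        have h4 := Finset.single_le_sum (f := fun v => (if u ≠ v ∧ y ∈ S u ∩ S v then lam ^ N else 0))
          (fun v _ => by split_ifs <;> first | exact pow_nonneg hlam0 _ | exact le_refl _) (Finset.mem_univ v)
        have h5 : (if u ≠ v ∧ y ∈ S u ∩ S v then lam ^ N else 0) = lam ^ N := by
          rw [if_pos ⟨huv, Finset.mem_inter.2 ⟨hu', hv'⟩⟩]
        simp only [h5] at h4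
        exact h4.trans h3
      have h2 : lam ^ (univ.filter fun u => y ∈ S u).card ≤ lam ^ N :=
        pow_le_pow_right₀ hlam (Finset.card_le_univ _)
      linarith
  -- integrate
  have h1 : Ex (fun y : X => lam ^ (univ.filter fun u => y ∈ S u).card) ≤
      Ex (fun y : X => 1 + (∑ u, (if y ∈ S u then lam else 0)) +
        ∑ u, ∑ v, (if u ≠ v ∧ y ∈ S u ∩ S v then lam ^ N else 0)) := Ex_mono hpt
  refine h1.trans ?_
  rw [Ex_add, Ex_add, Ex_const, Ex_sum]
  have h2 : ∀ u : U, Ex (fun y : X => if y ∈ S u then lam else 0) ≤ s * lam / Fintype.card X := by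
    intro u
    unfold Ex
    rw [Finset.sum_ite_mem, Finset.univ_inter, Finset.sum_const, nsmul_eq_mul]
    apply div_le_div_of_nonneg_right _ hX.le
    have : ((S u).card : ℝ) ≤ s := by exact_mod_cast hs u
    exact mul_le_mul_of_nonneg_right this hlam0
  have h3 : Ex (fun y : X => ∑ u, ∑ v, (if u ≠ v ∧ y ∈ S u ∩ S v then lam ^ N else 0)) ≤
      ((N:ℝ) ^ 2 * K) * lam ^ N / Fintype.card X := by
    have h4 : ∀ u v : U, Ex (fun y : X => if u ≠ v ∧ y ∈ S u ∩ S v then lam ^ N else 0) ≤
        K * lam ^ N / Fintype.card X := by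
      intro u v
      unfold Ex
      apply div_le_div_of_nonneg_right _ hX.le
      by_cases huv : u = v
      · subst huv
        simp only [ne_eq, not_true_eq_false, false_and, if_false, Finset.sum_const_zero]
        positivity
      · have : ∑ y : X, (if u ≠ v ∧ y ∈ S u ∩ S v then lam ^ N else 0) =
            ((S u ∩ S v).card : ℝ) * lam ^ N := by
          have : ∀ y : X, (if u ≠ v ∧ y ∈ S u ∩ S v then lam ^ N else 0) =
              if y ∈ S u ∩ S v then lam ^ N else 0 := by
            intro y; simp [huv]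
          simp only [this]
          rw [Finset.sum_ite_mem, Finset.univ_inter, Finset.sum_const, nsmul_eq_mul]
        rw [this]
        have h5 : ((S u ∩ S v).card : ℝ) ≤ K := by exact_mod_cast hK u v huv
        exact mul_le_mul_of_nonneg_right h5 (pow_nonneg hlam0 _)
    rw [Ex_sum]
    calc ∑ u : U, Ex (fun y : X => ∑ v, (if u ≠ v ∧ y ∈ S u ∩ S v then lam ^ N else 0))
        ≤ ∑ u : U, ∑ v : U, (K * lam ^ N / Fintype.card X) := by
          apply Finset.sum_le_sum
          intro u _
          rw [Ex_sum]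
          exact Finset.sum_le_sum fun v _ => h4 u v
      _ = _ := by
          simp only [Finset.sum_const, Finset.card_univ, nsmul_eq_mul, ← hN]
          ring
  have h6 : ∑ u : U, Ex (fun y : X => if y ∈ S u then lam else 0) ≤ (N:ℝ) * (s * lam / Fintype.card X) := by
    calc _ ≤ ∑ u : U, (s * lam / Fintype.card X) := Finset.sum_le_sum fun u _ => h2 u
      _ = _ := by simp [Finset.card_univ, hN]
  have h7 : (1 + ((((N:ℝ) * s) * lam + (((N:ℝ) ^ 2 * K) * lam ^ N)) / Fintype.card X)) =
      1 + (N:ℝ) * (s * lam / Fintype.card X) + ((N:ℝ) ^ 2 * K) * lam ^ N / Fintype.card X := by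
    field_simp
    ring
  rw [h7]
  linarith

end OneFactor

section Pins

variable {E X U : Type*} [Fintype E] [DecidableEq E] [Fintype X] [DecidableEq X] [Nonempty X]
  [Fintype U] [DecidableEq U]

/-- The moment bound with pinned coordinates. `P u e` is the matching set of `e` at the point `u`. -/
lemma Pr_pins_le (P : U → E → Finset X) (s K : ℕ) (hs : ∀ u e, (P u e).card ≤ s)
    (hK : ∀ u v e, u ≠ v → (P u e ∩ P v e).card ≤ K) (lam : ℝ) (hlam : 1 ≤ lam)
    (T : Finset E) (y0 : E → X) (n : U → ℕ) :
    Pr (fun κ : E → X => (∀ e ∈ T, κ e = y0 e) ∧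
        ∀ u, n u ≤ (univ.filter fun e => e ∉ T ∧ κ e ∈ P u e).card) ≤
      ((1 : ℝ) / Fintype.card X) ^ T.card *
        Real.exp (Fintype.card E * (((Fintype.card U : ℝ) * s) * lam +
          (((Fintype.card U : ℝ) ^ 2 * K) * lam ^ (Fintype.card U))) / Fintype.card X) /
        lam ^ (∑ u, n u) := by
  classical
  have hlam0 : 0 < lam := by linarith
  have hX : (0:ℝ) < Fintype.card X := by exact_mod_cast Fintype.card_pos
  set a : ℝ := (((Fintype.card U : ℝ) * s) * lam +
          (((Fintype.card U : ℝ) ^ 2 * K) * lam ^ (Fintype.card U))) / Fintype.card X with ha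
  have ha0 : 0 ≤ a := by positivity
  -- the factor function
  let f : E → X → ℝ := fun e y =>
    if e ∈ T then (if y = y0 e then 1 else 0) else lam ^ (univ.filter fun u => y ∈ P u e).card
  have hf0 : ∀ e y, 0 ≤ f e y := by
    intro e y
    simp only [f]
    split_ifs <;> first | positivity | norm_num
  have hEx1 : ∀ e ∈ T, Ex (f e) = (1:ℝ) / Fintype.card X := by
    intro e he
    unfold Ex
    congr 1
    simp only [f, he, if_true]
    simp
  have hEx2 : ∀ e, e ∉ T → Ex (f e) ≤ 1 + a := by
    intro e he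
    have := one_factor (fun u => P u e) s K (fun u => hs u e)
      (fun u v huv => hK u v e huv) lam hlam
    simp only [f, he, if_false]
    exact this
  have hprod : ∏ e, Ex (f e) ≤ ((1 : ℝ) / Fintype.card X) ^ T.card * Real.exp (Fintype.card E * a) := by
    have h1 : ∏ e, Ex (f e) = (∏ e ∈ T, Ex (f e)) * ∏ e ∈ univ \ T, Ex (f e) := by
      rw [mul_comm, Finset.prod_sdiff (Finset.subset_univ T)]
    rw [h1, Finset.prod_congr rfl hEx1, Finset.prod_const]
    apply mul_le_mul_of_nonneg_left _ (by positivity)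
    have h2 : ∏ e ∈ univ \ T, Ex (f e) ≤ ∏ e ∈ univ \ T, (1 + a) := by
      apply Finset.prod_le_prod
      · intro e _; exact Ex_nonneg (hf0 e)
      · intro e he
        exact hEx2 e (by simpa using he)
    refine h2.trans ?_
    rw [Finset.prod_const]
    have h3 : (1 + a) ≤ Real.exp a := by linarith [Real.add_one_le_exp a]
    have h4 : (1 + a) ^ (univ \ T).card ≤ (Real.exp a) ^ (univ \ T).card :=
      pow_le_pow_left₀ (by linarith) h3 _
    refine h4.trans ?_
    rw [← Real.exp_nat_mul]
    apply Real.exp_le_exp.2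
    apply mul_le_mul_of_nonneg_right _ ha0
    exact_mod_cast Finset.card_le_univ _
  -- pointwise
  have hpt : ∀ κ : E → X, ((∀ e ∈ T, κ e = y0 e) ∧
        ∀ u, n u ≤ (univ.filter fun e => e ∉ T ∧ κ e ∈ P u e).card) →
      lam ^ (∑ u, n u) ≤ ∏ e, f e (κ e) := by
    rintro κ ⟨h1, h2⟩
    have h3 : ∏ e, f e (κ e) = ∏ e, (if e ∈ T then 1 else lam ^ (univ.filter fun u => κ e ∈ P u e).card) := by
      apply Finset.prod_congr rfl
      intro e _
      simp only [f]
      by_cases he : e ∈ T
      · simp [he, h1 e he]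
      · simp [he]
    rw [h3, Finset.prod_ite]
    simp only [Finset.prod_const_one, one_mul]
    rw [Finset.prod_pow_eq_pow_sum]
    apply pow_le_pow_right₀ hlam
    -- double counting
    have h4 : ∑ e ∈ univ.filter (fun e => e ∉ T), (univ.filter fun u => κ e ∈ P u e).card =
        ∑ u, (univ.filter fun e => e ∉ T ∧ κ e ∈ P u e).card := by
      have := Finset.sum_card_bipartiteAbove_eq_sum_card_bipartiteBelow
        (s := univ.filter (fun e => e ∉ T)) (t := (univ : Finset U)) (fun e u => κ e ∈ P u e)
      simp only [Finset.bipartiteAbove, Finset.bipartiteBelow, Finset.filter_filter] at this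
      exact this
    rw [h4]
    exact Finset.sum_le_sum fun u _ => h2 u
  have hpos : 0 < lam ^ (∑ u, n u) := by positivity
  have h5 := markov (f := fun κ : E → X => ∏ e, f e (κ e))
    (fun κ => Finset.prod_nonneg fun e _ => hf0 e _) hpos
  rw [Ex_pi_prod] at h5
  calc _ ≤ Pr (fun κ : E → X => lam ^ (∑ u, n u) ≤ ∏ e, f e (κ e)) := Pr_mono hpt
    _ ≤ _ := h5
    _ ≤ _ := by
      rw [mul_div_assoc (Fintype.card E : ℝ), ← ha]
      apply div_le_div_of_nonneg_right hprod hpos.le

end Pins

end PatUB

end Crest.Agent.Ryser
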