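import Crest.Agent.Lib.Ryser.Hat

/-!
# Second moment tools for the sampling lemma: monomials of a random colouring.
-/

open Finset BigOperators

namespace Crest.Agent.Ryser

namespace SamplingAux

section Moments

set_option linter.unusedSectionVars false

variable {ι X κ : Type*} [Fintype ι] [DecidableEq ι] [Fintype X] [DecidableEq X] [Nonempty X]

/-- `xi z A c` : all coordinates of `A` have the colour `z`. -/
noncomputable def xi (z : X) (A : Finset ι) (c : ι → X) : ℝ := if ∀ y ∈ A, c y = z then 1 else 0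

lemma xi_nonneg (z : X) (A : Finset ι) (c : ι → X) : 0 ≤ xi z A c := by
  unfold xi; split_ifs <;> norm_num

lemma Ex_xi (z : X) (A : Finset ι) : Ex (xi z A) = ((1:ℝ) / Fintype.card X) ^ A.card := by
  have hX : (Fintype.card X : ℝ) ≠ 0 := by exact_mod_cast Fintype.card_ne_zero
  have h1 : xi z A = fun c : ι → X => ∏ i,
      (fun (i : ι) (x : X) => if i ∈ A then (if x = z then (1:ℝ) else 0) else 1) i (c i) := by
    funext c
    unfold xi
    split_ifs with h
    · symm
      apply Finset.prod_eq_one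
      intro i _
      by_cases hi : i ∈ A
      · simp [hi, h i hi]
      · simp [hi]
    · push Not at h
      obtain ⟨y, hy, hne⟩ := h
      symm
      apply Finset.prod_eq_zero (Finset.mem_univ y)
      simp [hy, hne]
  rw [h1, Ex_pi_prod (fun (i : ι) (x : X) => if i ∈ A then (if x = z then (1:ℝ) else 0) else 1)]
  have h2 : ∀ i : ι, Ex (fun x : X => if i ∈ A then (if x = z then (1:ℝ) else 0) else 1)
      = if i ∈ A then (1:ℝ) / Fintype.card X else 1 := by
    intro i
    by_cases hi : i ∈ A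
    · simp only [hi, if_true]
      unfold Ex
      rw [Finset.sum_ite_eq' Finset.univ z]
      simp
    · simp only [hi, if_false]
      exact Ex_const 1
  calc ∏ i, Ex _ = ∏ i, (if i ∈ A then (1:ℝ) / Fintype.card X else 1) :=
        Finset.prod_congr rfl (fun i _ => h2 i)
    _ = _ := by
        rw [Finset.prod_ite_mem, Finset.univ_inter, Finset.prod_const]

lemma xi_mul (z : X) (A B : Finset ι) (c : ι → X) :
    xi z A c * xi z B c = xi z (A ∪ B) c := by
  unfold xi
  by_cases hA : ∀ y ∈ A, c y = z <;> by_cases hB : ∀ y ∈ B, c y = z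
  · have : ∀ y ∈ A ∪ B, c y = z := by
      intro y hy
      rcases Finset.mem_union.1 hy with hy | hy
      · exact hA y hy
      · exact hB y hy
    rw [if_pos hA, if_pos hB, if_pos this, one_mul]
  · have : ¬ ∀ y ∈ A ∪ B, c y = z := fun h => hB (fun y hy => h y (Finset.mem_union_right _ hy))
    rw [if_neg hB, if_neg this, mul_zero]
  · have : ¬ ∀ y ∈ A ∪ B, c y = z := fun h => hA (fun y hy => h y (Finset.mem_union_left _ hy))
    rw [if_neg hA, if_neg this, zero_mul]
  · have : ¬ ∀ y ∈ A ∪ B, c y = z := fun h => hA (fun y hy => h y (Finset.mem_union_left _ hy))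
    rw [if_neg hA, if_neg this, zero_mul]

/-- Number of elements of `T` of colour `z` is a sum of monomials. -/
lemma card_filter_eq_sum_xi (z : X) (T : Finset ι) (c : ι → X) :
    (((T.filter fun y => c y = z).card : ℕ) : ℝ) = ∑ y ∈ T, xi z {y} c := by
  rw [Finset.card_filter]
  push_cast
  apply Finset.sum_congr rfl
  intro y _
  unfold xi
  simp

/-- `C(m, k)` for the number `m` of elements of `T` of colour `z` is a sum of monomials. -/
lemma choose_card_filter_eq_sum_xi (z : X) (T : Finset ι) (k : ℕ) (c : ι → X) :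
    ((((T.filter fun y => c y = z).card).choose k : ℕ) : ℝ) =
      ∑ A ∈ T.powersetCard k, xi z A c := by
  rw [← Finset.card_powersetCard]
  have : (T.filter fun y => c y = z).powersetCard k =
      (T.powersetCard k).filter (fun A => ∀ y ∈ A, c y = z) := by
    ext A
    simp only [Finset.mem_powersetCard, Finset.mem_filter]
    constructor
    · rintro ⟨hA, hk⟩
      exact ⟨⟨fun y hy => (Finset.mem_filter.1 (hA hy)).1, hk⟩, fun y hy => (Finset.mem_filter.1 (hA hy)).2⟩
    · rintro ⟨⟨hA, hk⟩, h⟩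
      exact ⟨fun y hy => Finset.mem_filter.2 ⟨hA hy, h y hy⟩, hk⟩
  rw [this, Finset.card_filter]
  push_cast
  rfl

/-- Expectation of a family sum. -/
lemma Ex_sum_xi (z : X) (I : Finset κ) (A : κ → Finset ι) :
    Ex (fun c : ι → X => ∑ i ∈ I, xi z (A i) c) = ∑ i ∈ I, ((1:ℝ) / Fintype.card X) ^ (A i).card := by
  rw [Ex_sum]
  exact Finset.sum_congr rfl (fun i _ => Ex_xi z (A i))

/-- Variance bound of a family sum of monomials of the same degree. -/
lemma Ex_sq_sub_le (z : X) (I : Finset κ) (A : κ → Finset ι) (k : ℕ)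
    (hk : ∀ i ∈ I, (A i).card = k) (V : ℝ)
    (hV : ∑ i ∈ I, ∑ j ∈ I.filter (fun j => ¬ Disjoint (A i) (A j)),
      ((1:ℝ) / Fintype.card X) ^ (A i ∪ A j).card ≤ V) :
    Ex (fun c : ι → X => (∑ i ∈ I, xi z (A i) c - I.card * ((1:ℝ) / Fintype.card X) ^ k) ^ 2) ≤ V := by
  classical
  set p : ℝ := (1:ℝ) / Fintype.card X with hp
  have hp0 : 0 ≤ p := by rw [hp]; positivity
  set μ : ℝ := I.card * p ^ k with hμ
  have hE1 : Ex (fun c : ι → X => ∑ i ∈ I, xi z (A i) c) = μ := by
    rw [Ex_sum_xi, hμ]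
    rw [Finset.sum_congr rfl (fun i hi => by rw [hk i hi]), Finset.sum_const, nsmul_eq_mul]
  have hE2 : Ex (fun c : ι → X => (∑ i ∈ I, xi z (A i) c) ^ 2) =
      ∑ i ∈ I, ∑ j ∈ I, p ^ (A i ∪ A j).card := by
    have : (fun c : ι → X => (∑ i ∈ I, xi z (A i) c) ^ 2) =
        fun c => ∑ i ∈ I, ∑ j ∈ I, xi z (A i ∪ A j) c := by
      funext c
      rw [sq, Finset.sum_mul_sum]
      exact Finset.sum_congr rfl (fun i _ => Finset.sum_congr rfl (fun j _ => xi_mul z _ _ c))
    rw [this, Ex_sum]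
    apply Finset.sum_congr rfl
    intro i _
    rw [Ex_sum]
    exact Finset.sum_congr rfl (fun j _ => Ex_xi z _)
  have hexp : Ex (fun c : ι → X => (∑ i ∈ I, xi z (A i) c - μ) ^ 2) =
      (∑ i ∈ I, ∑ j ∈ I, p ^ (A i ∪ A j).card) - μ ^ 2 := by
    have : (fun c : ι → X => (∑ i ∈ I, xi z (A i) c - μ) ^ 2) =
        fun c => (∑ i ∈ I, xi z (A i) c) ^ 2 + ((-2 * μ) * (∑ i ∈ I, xi z (A i) c) + μ ^ 2) := by
      funext c; ring
    rw [this, Ex_add, Ex_add, Ex_const_mul, hE1, hE2, Ex_const]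
    ring
  rw [hexp]
  have hμ2 : μ ^ 2 = ∑ i ∈ I, ∑ _j ∈ I, p ^ (2 * k) := by
    rw [hμ]
    simp only [Finset.sum_const, nsmul_eq_mul]
    rw [mul_pow, ← pow_mul, mul_comm k 2, sq, mul_assoc]
  rw [hμ2, ← Finset.sum_sub_distrib]
  refine le_trans ?_ hV
  apply Finset.sum_le_sum
  intro i hi
  rw [← Finset.sum_sub_distrib]
  rw [← Finset.sum_filter_add_sum_filter_not I (fun j => ¬ Disjoint (A i) (A j))]
  have h0 : ∑ j ∈ I.filter (fun j => ¬ ¬ Disjoint (A i) (A j)),
      (p ^ (A i ∪ A j).card - p ^ (2 * k)) = 0 := by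
    apply Finset.sum_eq_zero
    intro j hj
    simp only [not_not, Finset.mem_filter] at hj
    rw [Finset.card_union_of_disjoint hj.2, hk i hi, hk j hj.1, two_mul, sub_self]
  rw [h0, add_zero]
  apply Finset.sum_le_sum
  intro j _
  have : 0 ≤ p ^ (2 * k) := by positivity
  linarith

/-- Chebyshev. -/
lemma pr_sq_ge_le {Ω : Type*} [Fintype Ω] (f : Ω → ℝ) (μ V a : ℝ) (ha : 0 < a)
    (hV : Ex (fun ω => (f ω - μ) ^ 2) ≤ V) :
    Pr (fun ω => a ^ 2 ≤ (f ω - μ) ^ 2) ≤ V / a ^ 2 := by
  calc _ ≤ Ex (fun ω => (f ω - μ) ^ 2) / a ^ 2 := markov (fun ω => sq_nonneg _) (by positivity)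
    _ ≤ _ := div_le_div_of_nonneg_right hV (by positivity)

/-- Lower tail Chebyshev. -/
lemma pr_lt_half_le {Ω : Type*} [Fintype Ω] (f : Ω → ℝ) (μ V : ℝ) (hμ : 0 < μ)
    (hV : Ex (fun ω => (f ω - μ) ^ 2) ≤ V) :
    Pr (fun ω => f ω < μ / 2) ≤ 4 * V / μ ^ 2 := by
  have h := pr_sq_ge_le f μ V (μ / 2) (by positivity) hV
  calc Pr (fun ω => f ω < μ / 2) ≤ Pr (fun ω => (μ / 2) ^ 2 ≤ (f ω - μ) ^ 2) := by
        apply Pr_mono
        intro ω hω
        have : f ω - μ < - (μ / 2) := by linarith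
        nlinarith
    _ ≤ V / (μ / 2) ^ 2 := h
    _ = _ := by field_simp; ring

/-- Variance bound for the number of elements of colour `z` in a set `T`. -/
lemma Ex_sq_card_sub_le (z : X) (T : Finset ι) :
    Ex (fun c : ι → X => (((T.filter fun y => c y = z).card : ℝ) - T.card * ((1:ℝ) / Fintype.card X)) ^ 2)
      ≤ T.card * ((1:ℝ) / Fintype.card X) := by
  have h := Ex_sq_sub_le (ι := ι) (X := X) (κ := ι) z T (fun y => {y}) 1
    (fun i _ => Finset.card_singleton i) (T.card * ((1:ℝ) / Fintype.card X)) (by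
      have hin : ∀ i ∈ T, ∑ j ∈ T.filter (fun j => ¬ Disjoint ({i} : Finset ι) {j}),
          ((1:ℝ) / Fintype.card X) ^ (({i} : Finset ι) ∪ {j}).card = (1:ℝ) / Fintype.card X := by
        intro i hi
        have : T.filter (fun j => ¬ Disjoint ({i} : Finset ι) {j}) = {i} := by
          ext j
          simp only [Finset.mem_filter, Finset.disjoint_singleton, Finset.mem_singleton, not_not]
          constructor
          · rintro ⟨_, h⟩; exact h.symm
          · rintro rfl; exact ⟨hi, rfl⟩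
        rw [this, Finset.sum_singleton]
        simp
      rw [Finset.sum_congr rfl hin, Finset.sum_const, nsmul_eq_mul])
  simp only [pow_one] at h
  refine le_trans (le_of_eq ?_) h
  congr 1
  funext c
  rw [card_filter_eq_sum_xi]

end Moments

end SamplingAux

end Crest.Agent.Ryser
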