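import Crest.Agent.Lib.Ryser.SelectChoice

/-!
# Module SELNUM: the numbers, integer scale `n`: `n^1000 ≤ q < (n+1)^1000`, `T = n^479`, `G = n^510`, `R = n`.

`μ = T²/q ∈ [n^(-42)/2, n^(-42)]`, `t = T/6`, `Lo = 10 n⁵`, `t₀ = n⁵` (rather than `c n⁶` and its floor: this is enough,
and avoids the floor).  Then each base in `selGood_fail` is `≤ C n^(-5)`, so each term of `safeFail` is at most `(1/2)^(n⁵)`.
-/

open Finset BigOperators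

namespace Crest.Agent.Ryser

namespace SelNumAux

section Core

set_option maxRecDepth 100000

variable {x Q e μ : ℝ}

lemma x_pow_ge (hx : (10:ℝ)^41 ≤ x) {k : ℕ} (hk : 1 ≤ k) : (10:ℝ)^41 ≤ x^k := by
  have h1 : (1:ℝ) ≤ x := le_trans (by norm_num) hx
  calc (10:ℝ)^41 ≤ x := hx
    _ = x^1 := (pow_one x).symm
    _ ≤ x^k := pow_le_pow_right₀ h1 hk

lemma b1 (hx : (10:ℝ)^41 ≤ x) (hQ1 : x^1000 ≤ Q) {e6 : ℝ}
    (he0 : 0 ≤ e) (he : e ≤ 3) (he60 : 0 ≤ e6) (he6 : e6 ≤ 729) (hμ0 : 0 ≤ μ) (hμ : μ ≤ (x^42)⁻¹) :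
    e * (x^510 * (16 * (x^479 * x^510 / Q) * (e6 * μ^12))) / x^5 ≤ 1/2 := by
  have hx0 : 0 < x := lt_of_lt_of_le (by norm_num) hx
  have hQ0 : 0 < Q := lt_of_lt_of_le (by positivity) hQ1
  have hxk := x_pow_ge hx (k := 10) (by norm_num)
  calc e * (x^510 * (16 * (x^479 * x^510 / Q) * (e6 * μ^12))) / x^5
      ≤ 3 * (x^510 * (16 * (x^479 * x^510 / x^1000) * (729 * ((x^42)⁻¹)^12))) / x^5 := by gcongr
    _ = 34992 / x^10 := by field_simp; norm_num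
    _ ≤ 1/2 := by
       rw [div_le_iff₀ (by positivity)]
       norm_num at hxk ⊢
       linarith

lemma b2 (hx : (10:ℝ)^41 ≤ x) {e10 : ℝ}
    (he0 : 0 ≤ e) (he : e ≤ 3) (he0' : 0 ≤ e10) (he' : e10 ≤ 59049) (hμ0 : 0 ≤ μ) (hμ : μ ≤ (x^42)⁻¹) :
    e * (x^510 * (2 * x^479 * (e10 * μ^24))) / x^5 ≤ 1/2 := by
  have hx0 : 0 < x := lt_of_lt_of_le (by norm_num) hx
  have hxk := x_pow_ge hx (k := 24) (by norm_num)
  calc e * (x^510 * (2 * x^479 * (e10 * μ^24))) / x^5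
      ≤ 3 * (x^510 * (2 * x^479 * (59049 * ((x^42)⁻¹)^24))) / x^5 := by gcongr
    _ = 354294 / x^24 := by field_simp; norm_num
    _ ≤ 1/2 := by
       rw [div_le_iff₀ (by positivity)]
       norm_num at hxk ⊢
       linarith

lemma b3 (hx : (10:ℝ)^41 ≤ x) (hQ0 : 0 ≤ Q) (hQ2 : Q ≤ 2 * x^1000) {e14 : ℝ}
    (he0 : 0 ≤ e) (he : e ≤ 3) (he0' : 0 ≤ e14) (he' : e14 ≤ 4782969) (hμ0 : 0 ≤ μ) (hμ : μ ≤ (x^42)⁻¹) :
    e * (x^510 * (Q * x^2 * (e14 * μ^36))) / x^5 ≤ 1/2 := by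
  have hx0 : 0 < x := lt_of_lt_of_le (by norm_num) hx
  have hxk := x_pow_ge hx (k := 5) (by norm_num)
  calc e * (x^510 * (Q * x^2 * (e14 * μ^36))) / x^5
      ≤ 3 * (x^510 * ((2 * x^1000) * x^2 * (4782969 * ((x^42)⁻¹)^36))) / x^5 := by gcongr
    _ = 28697814 / x^5 := by field_simp; norm_num
    _ ≤ 1/2 := by
       rw [div_le_iff₀ (by positivity)]
       norm_num at hxk ⊢
       linarith

lemma b4 (hx : (10:ℝ)^41 ≤ x) (hQ1 : x^1000 ≤ Q) {e10 Z : ℝ} (hZ0 : 0 ≤ Z) (hZ : Z ≤ 2 * Q)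
    (he0 : 0 ≤ e) (he : e ≤ 3) (he0' : 0 ≤ e10) (he' : e10 ≤ 59049) (hμ0 : 0 ≤ μ) (hμ : μ ≤ (x^42)⁻¹) :
    e * (x^510 * (Z * ((4 * x^479 / Q) * (e10 * μ^24)))) / x^5 ≤ 1/2 := by
  have hx0 : 0 < x := lt_of_lt_of_le (by norm_num) hx
  have hQ0 : 0 < Q := lt_of_lt_of_le (by positivity) hQ1
  have hxk := x_pow_ge hx (k := 24) (by norm_num)
  have h1 : Z * (4 * x^479 / Q) ≤ 8 * x^479 := by
    calc Z * (4 * x^479 / Q) ≤ (2 * Q) * (4 * x^479 / Q) := by gcongr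
      _ = 8 * x^479 := by field_simp; norm_num
  calc e * (x^510 * (Z * ((4 * x^479 / Q) * (e10 * μ^24)))) / x^5
      = e * (x^510 * ((Z * (4 * x^479 / Q)) * (e10 * μ^24))) / x^5 := by ring
    _ ≤ 3 * (x^510 * ((8 * x^479) * (59049 * ((x^42)⁻¹)^24))) / x^5 := by gcongr
    _ = 1417176 / x^24 := by field_simp; norm_num
    _ ≤ 1/2 := by
       rw [div_le_iff₀ (by positivity)]
       norm_num at hxk ⊢
       linarith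

lemma c1 (hx : (10:ℝ)^41 ≤ x) (hQ1 : x^1000 ≤ Q) (hQ2 : Q ≤ 2 * x^1000) {e6 : ℝ}
    (he0 : 0 ≤ e) (he : e ≤ 3) (he60 : 0 ≤ e6) (he6 : e6 ≤ 729) (hμ0 : 0 ≤ μ) (hμ : μ ≤ (x^42)⁻¹) :
    Q^2 * (e * (x^510 * (x * ((4 * x^479 / Q) * (e6 * μ^12)))) / 5)^5 ≤ 1/64 := by
  have hx0 : 0 < x := lt_of_lt_of_le (by norm_num) hx
  have hQ0 : 0 < Q := lt_of_lt_of_le (by positivity) hQ1
  have hxk := x_pow_ge hx (k := 570) (by norm_num)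
  calc Q^2 * (e * (x^510 * (x * ((4 * x^479 / Q) * (e6 * μ^12)))) / 5)^5
      ≤ (2 * x^1000)^2 * (3 * (x^510 * (x * ((4 * x^479 / x^1000) * (729 * ((x^42)⁻¹)^12)))) / 5)^5 := by
        gcongr
    _ = (2^2 * (3 * 4 * 729 / 5)^5) / x^570 := by field_simp
    _ ≤ 1/64 := by
       rw [div_le_iff₀ (by positivity)]
       norm_num at hxk ⊢
       linarith

lemma c2 (hx : (10:ℝ)^41 ≤ x) (hQ1 : x^1000 ≤ Q) (hQ2 : Q ≤ 2 * x^1000) {e6 : ℝ}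
    (he0 : 0 ≤ e) (he : e ≤ 3) (he60 : 0 ≤ e6) (he6 : e6 ≤ 729) (hμ0 : 0 ≤ μ) (hμ : μ ≤ (x^42)⁻¹) :
    ((Q + 1) * Q * Q^2) * (e * (x^510 * (x * (4 * ((x^479)^2 / Q^2) * (e6 * μ^11)))) / 5)^5 ≤ 1/64 := by
  have hx0 : 0 < x := lt_of_lt_of_le (by norm_num) hx
  have hQ0 : 0 < Q := lt_of_lt_of_le (by positivity) hQ1
  have hxk := x_pow_ge hx (k := 965) (by norm_num)
  have hone : (1:ℝ) ≤ x^1000 := one_le_pow₀ (le_trans (by norm_num) hx)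
  calc ((Q + 1) * Q * Q^2) * (e * (x^510 * (x * (4 * ((x^479)^2 / Q^2) * (e6 * μ^11)))) / 5)^5
      ≤ ((3 * x^1000) * (2 * x^1000) * (2 * x^1000)^2) *
          (3 * (x^510 * (x * (4 * ((x^479)^2 / (x^1000)^2) * (729 * ((x^42)⁻¹)^11)))) / 5)^5 := by
        gcongr
        linarith
    _ = ((3 * 2 * 2^2) * (3 * 4 * 729 / 5)^5) / x^965 := by field_simp
    _ ≤ 1/64 := by
       rw [div_le_iff₀ (by positivity)]
       norm_num at hxk ⊢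
       linarith

lemma c3 (hx : (10:ℝ)^41 ≤ x) (hQ1 : x^1000 ≤ Q) (hQ2 : Q ≤ 2 * x^1000) {e6 : ℝ}
    (he0 : 0 ≤ e) (he : e ≤ 3) (he60 : 0 ≤ e6) (he6 : e6 ≤ 729) (hμ0 : 0 ≤ μ) (hμ : μ ≤ (x^42)⁻¹) :
    ((Q + 1) * Q * (Q + 1)) * (e * (x^510 * ((2 * x^479) * (4 * ((x^479)^2 / Q^2) * (e6 * μ^11)))) / 7)^7 ≤ 1/64 := by
  have hx0 : 0 < x := lt_of_lt_of_le (by norm_num) hx
  have hQ0 : 0 < Q := lt_of_lt_of_le (by positivity) hQ1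
  have hxk := x_pow_ge hx (k := 605) (by norm_num)
  have hone : (1:ℝ) ≤ x^1000 := one_le_pow₀ (le_trans (by norm_num) hx)
  calc ((Q + 1) * Q * (Q + 1)) * (e * (x^510 * ((2 * x^479) * (4 * ((x^479)^2 / Q^2) * (e6 * μ^11)))) / 7)^7
      ≤ ((3 * x^1000) * (2 * x^1000) * (3 * x^1000)) *
          (3 * (x^510 * ((2 * x^479) * (4 * ((x^479)^2 / (x^1000)^2) * (729 * ((x^42)⁻¹)^11)))) / 7)^7 := by
        gcongr <;> linarith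
    _ = ((3 * 2 * 3) * (3 * 2 * 4 * 729 / 7)^7) / x^605 := by field_simp
    _ ≤ 1/64 := by
       rw [div_le_iff₀ (by positivity)]
       norm_num at hxk ⊢
       linarith

/-- `(x+1)^1000 ≤ 2 x^1000`. -/
lemma succ_pow_le (hx : (10:ℝ)^41 ≤ x) : (x + 1)^1000 ≤ 2 * x^1000 := by
  have hx0 : 0 < x := lt_of_lt_of_le (by norm_num) hx
  obtain ⟨y, hy⟩ : ∃ y, y = x + 1 := ⟨_, rfl⟩
  rw [← hy]
  have hy0 : 0 < y := by rw [hy]; positivity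
  have hB : (1:ℝ) + (1000:ℕ) * (-(1/y)) ≤ (1 + (-(1/y)))^1000 :=
    one_add_mul_le_pow (by
      have : 1/y ≤ 1 := by
        rw [div_le_iff₀ hy0, hy]; linarith
      linarith) 1000
  have h1 : (1 + (-(1/y))) = x/y := by
    rw [hy]; field_simp; ring
  rw [h1] at hB
  have h2 : (1000:ℝ)/y ≤ 1/2 := by
    rw [div_le_iff₀ hy0, hy]
    norm_num at hx ⊢
    linarith
  have h3 : (1/2 : ℝ) ≤ (x/y)^1000 := by
    have : (1:ℝ) + (1000:ℕ) * (-(1/y)) = 1 - 1000/y := by push_cast; ring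
    rw [this] at hB
    linarith
  rw [div_pow, le_div_iff₀ (by positivity)] at h3
  linarith

/-- `384 n^1000 ≤ 2^(n^5)`. -/
lemma nat_bound {n : ℕ} (hn : 10^41 ≤ n) : 384 * n^1000 ≤ 2^(n^5) := by
  have h1 : n^1000 ≤ (2^n)^1000 := Nat.pow_le_pow_left (Nat.lt_two_pow_self).le _
  have h2 : 1000 * n + 9 ≤ n^5 := by
    have hn' : 2000 ≤ n := le_trans (by norm_num) hn
    have h3 : n * n ≤ n^5 := by
      calc n * n = n^2 := by ring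
        _ ≤ n^5 := Nat.pow_le_pow_right (by omega) (by norm_num)
    nlinarith
  calc 384 * n^1000 ≤ 2^9 * (2^n)^1000 := by
        apply Nat.mul_le_mul (by norm_num) h1
    _ = 2^(1000 * n + 9) := by
        rw [← pow_mul]; ring
    _ ≤ 2^(n^5) := Nat.pow_le_pow_right (by norm_num) h2

lemma delta_bound {n : ℕ} (hn : 10^41 ≤ n) : 384 * (n:ℝ)^1000 * (1/2:ℝ)^(n^5) ≤ 1 := by
  have h : (384:ℝ) * (n:ℝ)^1000 ≤ 2^(n^5) := by exact_mod_cast nat_bound hn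
  have h2 : (1/2:ℝ)^(n^5) = ((2:ℝ)^(n^5))⁻¹ := by
    rw [one_div, inv_pow]
  rw [h2, ← div_eq_mul_inv, div_le_one (by positivity)]
  exact h

lemma exp_bound (k : ℕ) : Real.exp (-(10 * (k:ℝ) / 8)) ≤ (1/2:ℝ)^k := by
  have h1 : Real.exp (-(10 * (k:ℝ) / 8)) ≤ Real.exp ((k:ℝ) * (-1)) := by
    apply Real.exp_le_exp.2
    have : (0:ℝ) ≤ k := Nat.cast_nonneg k
    linarith
  have h2 : Real.exp ((k:ℝ) * (-1)) = (Real.exp (-1))^k := Real.exp_nat_mul _ _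
  have h3 : Real.exp (-1) ≤ 1/2 := by
    rw [Real.exp_neg, one_div]
    apply inv_anti₀ (by norm_num)
    have := Real.exp_one_gt_d9
    linarith
  calc _ ≤ _ := h1
    _ = _ := h2
    _ ≤ _ := pow_le_pow_left₀ (Real.exp_pos _).le h3 _

lemma exp_le_three_pow (k : ℕ) : Real.exp k ≤ 3^k := by
  rw [← Real.exp_one_pow]
  apply pow_le_pow_left₀ (Real.exp_pos _).le
  have := Real.exp_one_lt_d9
  linarith

lemma real_facts (hx : (10:ℝ)^41 ≤ x) (hQ1 : x^1000 ≤ Q) (hQ2 : Q ≤ 2 * x^1000) :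
    0 < (x ^ 479) ^ 2 / Q ∧ (x ^ 479) ^ 2 / Q ≤ (x ^ 42)⁻¹ ∧ (x ^ 479) ^ 2 / Q ≤ 1 ∧
    1296 * x ^ 479 ≤ Q * ((x ^ 479) ^ 2 / Q) ^ 3 ∧ 32 * (x ^ 479) ^ 2 ≤ Q ∧ 80 * x ^ 479 ≤ Q := by
  have hx0 : 0 < x := lt_of_lt_of_le (by norm_num) hx
  have hx1 : 1 ≤ x := le_trans (by norm_num) hx
  have hQ0 : 0 < Q := lt_of_lt_of_le (by positivity) hQ1
  have hμle : (x ^ 479) ^ 2 / Q ≤ (x ^ 42)⁻¹ := by
    calc (x ^ 479) ^ 2 / Q ≤ (x ^ 479) ^ 2 / x ^ 1000 := by gcongr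
      _ = (x ^ 42)⁻¹ := by field_simp
  refine ⟨by positivity, hμle, hμle.trans (inv_le_one_of_one_le₀ (one_le_pow₀ hx1)), ?_, ?_, ?_⟩
  · -- 1296 T ≤ q μ³
    have h1 : Q * ((x ^ 479) ^ 2 / Q) ^ 3 = (x^479)^6 / Q^2 := by
      field_simp
    rw [h1, le_div_iff₀ (by positivity)]
    have hQsq : Q^2 ≤ (2 * x^1000)^2 := by gcongr
    have hk : (10:ℝ)^41 ≤ x^395 := x_pow_ge hx (by norm_num)
    have hpos : (0:ℝ) < x^479 * (x^1000)^2 := by positivity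
    calc 1296 * x^479 * Q^2 ≤ 1296 * x^479 * (2 * x^1000)^2 := by gcongr
      _ = 5184 * (x^479 * (x^1000)^2) := by ring
      _ ≤ x^395 * (x^479 * (x^1000)^2) := by
          apply mul_le_mul_of_nonneg_right _ hpos.le
          norm_num at hk ⊢
          linarith
      _ = (x^479)^6 := by ring
  · refine le_trans ?_ hQ1
    have hk : (10:ℝ)^41 ≤ x^42 := x_pow_ge hx (by norm_num)
    have hpos : (0:ℝ) < (x^479)^2 := by positivity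
    calc (32:ℝ) * (x^479)^2 ≤ x^42 * (x^479)^2 := by
          apply mul_le_mul_of_nonneg_right _ hpos.le
          norm_num at hk ⊢
          linarith
      _ = x^1000 := by ring
  · refine le_trans ?_ hQ1
    have hk : (10:ℝ)^41 ≤ x^521 := x_pow_ge hx (by norm_num)
    have hpos : (0:ℝ) < x^479 := by positivity
    calc (80:ℝ) * x^479 ≤ x^521 * x^479 := by
          apply mul_le_mul_of_nonneg_right _ hpos.le
          norm_num at hk ⊢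
          linarith
      _ = x^1000 := by ring

lemma group_part (hx : (10:ℝ)^41 ≤ x) (hQ1 : x^1000 ≤ Q) (hQ2 : Q ≤ 2 * x^1000) {tt : ℝ}
    (htt : x ^ 479 / 12 ≤ tt) :
    10 * x ^ 5 / x ^ 510 ≤ (1 / 2 : ℝ) * (tt ^ 2 / (5 * Q)) ^ 12 := by
  have hx0 : 0 < x := lt_of_lt_of_le (by norm_num) hx
  have hQ0 : 0 < Q := lt_of_lt_of_le (by positivity) hQ1
  have h2 : (x ^ 42 * 1440)⁻¹ ≤ tt ^ 2 / (5 * Q) := by
    calc (x ^ 42 * 1440)⁻¹ = (x ^ 479 / 12) ^ 2 / (5 * (2 * x ^ 1000)) := by field_simp; norm_num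
      _ ≤ tt ^ 2 / (5 * Q) := by gcongr
  have h3 : ((x ^ 42 * 1440)⁻¹) ^ 12 ≤ (tt ^ 2 / (5 * Q)) ^ 12 :=
    pow_le_pow_left₀ (by positivity) h2 _
  refine le_trans ?_ (mul_le_mul_of_nonneg_left h3 (by norm_num))
  have h4 : 10 * x ^ 5 / x ^ 510 = 10 / (x ^ 505) := by field_simp
  rw [h4]
  have h5 : (1 / 2 : ℝ) * ((x ^ 42 * 1440)⁻¹) ^ 12 = (1 / (2 * 1440 ^ 12)) / x ^ 504 := by
    field_simp
  rw [h5, div_le_div_iff₀ (by positivity) (by positivity)]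
  have h6 : x ^ 505 = x * x ^ 504 := by ring
  rw [h6]
  have h7 : 10 * (2 * 1440 ^ 12 : ℝ) ≤ x := by
    refine le_trans ?_ hx
    norm_num
  have hp : (0:ℝ) < x ^ 504 := by positivity
  have h8 : (1:ℝ) / (2 * 1440 ^ 12) * (x * x ^ 504) = (x / (2 * 1440 ^ 12)) * x ^ 504 := by ring
  rw [h8]
  apply mul_le_mul_of_nonneg_right _ hp.le
  rw [le_div_iff₀ (by positivity)]
  exact h7

lemma sum_part (hx : (10:ℝ)^41 ≤ x) (hQ1 : x^1000 ≤ Q) (hQ2 : Q ≤ 2 * x^1000) {Z : ℝ} (hZ0 : 0 ≤ Z) (hZ : Z ≤ 2 * Q)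
    {k : ℕ} (hk : (k:ℝ) = x ^ 5) (hdelta : 384 * x^1000 * (1/2:ℝ)^k ≤ 1)
    (hμ0 : 0 ≤ μ) (hμle : μ ≤ (x ^ 42)⁻¹) :
    Z * (Real.exp (-(10 * x ^ 5 / 8)) +
      2 * (Real.exp 1 * (x ^ 510 * (16 * (x ^ 479 * x ^ 510 / Q) * (Real.exp 6 * μ ^ 12))) / x ^ 5) ^ k +
      (Real.exp 1 * (x ^ 510 * (2 * x ^ 479 * (Real.exp 10 * μ ^ 24))) / x ^ 5) ^ k +
      (Real.exp 1 * (x ^ 510 * (Q * x ^ 2 * (Real.exp 14 * μ ^ 36))) / x ^ 5) ^ k +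
      (Real.exp 1 * (x ^ 510 * (Z * (4 * x ^ 479 / Q * (Real.exp 10 * μ ^ 24)))) / x ^ 5) ^ k) +
    Q ^ 2 * (Real.exp 1 * (x ^ 510 * (x * ((4 * x ^ 479 / Q) * (Real.exp 6 * μ ^ 12)))) / 5) ^ 5 +
    ((Q + 1) * Q * Q ^ 2) * (Real.exp 1 * (x ^ 510 * (x * (4 * ((x ^ 479) ^ 2 / Q ^ 2) * (Real.exp 6 * μ ^ 11)))) / 5) ^ 5 +
    ((Q + 1) * Q * (Q + 1)) * (Real.exp 1 * (x ^ 510 * ((2 * x ^ 479) * (4 * ((x ^ 479) ^ 2 / Q ^ 2) * (Real.exp 6 * μ ^ 11)))) / 7) ^ 7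
      ≤ 1 / 8 := by
  have hx0 : 0 < x := lt_of_lt_of_le (by norm_num) hx
  have hQ0 : 0 < Q := lt_of_lt_of_le (by positivity) hQ1
  have he0 : 0 ≤ Real.exp 1 := (Real.exp_pos _).le
  have he : Real.exp 1 ≤ 3 := by have := Real.exp_one_lt_d9; linarith
  have he6 : Real.exp 6 ≤ 729 := by
    have := exp_le_three_pow 6; norm_num at this; exact this
  have he10 : Real.exp 10 ≤ 59049 := by
    have := exp_le_three_pow 10; norm_num at this; exact this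
  have he14 : Real.exp 14 ≤ 4782969 := by
    have := exp_le_three_pow 14; norm_num at this; exact this
  have he60 : 0 ≤ Real.exp 6 := (Real.exp_pos _).le
  have he100 : 0 ≤ Real.exp 10 := (Real.exp_pos _).le
  have he140 : 0 ≤ Real.exp 14 := (Real.exp_pos _).le
  set δ : ℝ := (1/2:ℝ)^k with hδ
  have hδ0 : 0 ≤ δ := by positivity
  have hbase : ∀ b : ℝ, 0 ≤ b → b ≤ 1/2 → b^k ≤ δ := fun b h0 h1 => pow_le_pow_left₀ h0 h1 _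
  have t1 := hbase _ (by positivity) (b1 hx hQ1 he0 he he60 he6 hμ0 hμle)
  have t2 := hbase _ (by positivity) (b2 hx he0 he he100 he10 hμ0 hμle)
  have t3 := hbase _ (by positivity) (b3 hx hQ0.le hQ2 he0 he he140 he14 hμ0 hμle)
  have t4 := hbase _ (by positivity) (b4 hx hQ1 hZ0 hZ he0 he he100 he10 hμ0 hμle)
  have t0 : Real.exp (-(10 * x ^ 5 / 8)) ≤ δ := by
    have := exp_bound k
    rw [hk] at this
    exact this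
  have c1' := c1 hx hQ1 hQ2 he0 he he60 he6 hμ0 hμle
  have c2' := c2 hx hQ1 hQ2 he0 he he60 he6 hμ0 hμle
  have c3' := c3 hx hQ1 hQ2 he0 he he60 he6 hμ0 hμle
  set sf : ℝ := Real.exp (-(10 * x ^ 5 / 8)) +
      2 * (Real.exp 1 * (x ^ 510 * (16 * (x ^ 479 * x ^ 510 / Q) * (Real.exp 6 * μ ^ 12))) / x ^ 5) ^ k +
      (Real.exp 1 * (x ^ 510 * (2 * x ^ 479 * (Real.exp 10 * μ ^ 24))) / x ^ 5) ^ k +
      (Real.exp 1 * (x ^ 510 * (Q * x ^ 2 * (Real.exp 14 * μ ^ 36))) / x ^ 5) ^ k +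
      (Real.exp 1 * (x ^ 510 * (Z * (4 * x ^ 479 / Q * (Real.exp 10 * μ ^ 24)))) / x ^ 5) ^ k with hsf
  have hsf1 : sf ≤ 6 * δ := by rw [hsf]; linarith
  have hsf0 : 0 ≤ sf := by rw [hsf]; positivity
  have hmain : Z * sf ≤ 1/16 := by
    calc Z * sf ≤ (2 * Q) * (6 * δ) := mul_le_mul hZ hsf1 hsf0 (by positivity)
      _ ≤ (2 * (2 * x^1000)) * (6 * δ) := by gcongr
      _ = (384 * x^1000 * δ) / 16 := by ring
      _ ≤ 1/16 := by linarith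
  have : (1/16 : ℝ) + 1/64 + 1/64 + 1/64 ≤ 1/8 := by norm_num
  linarith

end Core

end SelNumAux

open SelNumAux

variable {P V L : Type*} [Fintype P] [DecidableEq P] [Fintype V] [DecidableEq V]
  [Fintype L] [DecidableEq L] [Nonempty V]

/-- All the numeric inequalities needed, in one proposition. -/
def SelNumOK (n : ℕ) : Prop :=
  ∀ q : ℕ, n ^ 1000 ≤ q → q < (n + 1) ^ 1000 →
    ∃ (μ Lo : ℝ) (t₀ : ℕ), μ = ((n ^ 479 : ℕ) : ℝ) ^ 2 / q ∧ 0 < μ ∧ μ ≤ 1 ∧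
      1296 * ((n ^ 479 : ℕ) : ℝ) ≤ q * μ ^ 3 ∧ 0 ≤ Lo ∧ 1 ≤ t₀ ∧ 10 * (t₀ : ℝ) ≤ Lo ∧
      32 * (n ^ 479) ^ 2 ≤ q ∧ 80 * (n ^ 479) ≤ q ∧
      -- the group-level lower bound
      Lo / ((n ^ 510 : ℕ) : ℝ) ≤ (1 / 2 : ℝ) * ((((n ^ 479 / 6 : ℕ) : ℝ)) ^ 2 / (5 * q)) ^ 12 ∧
      ∀ ZZ : ℕ, ZZ ≤ 2 * q →
      (ZZ : ℝ) * safeFail q (n ^ 510) (n ^ 479) n ZZ t₀ μ Lo +
      (q : ℝ) ^ 2 * (Real.exp 1 * (((n ^ 510 : ℕ) : ℝ) * ((n : ℝ) * ((4 * ((n ^ 479 : ℕ) : ℝ) / q) * (Real.exp 6 * μ ^ 12)))) / 5) ^ 5 +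
      ((q + 1 : ℝ) * q * (q : ℝ) ^ 2) *
        (Real.exp 1 * (((n ^ 510 : ℕ) : ℝ) * ((n : ℝ) * (4 * ((((n ^ 479 : ℕ) : ℝ)) ^ 2 / (q : ℝ) ^ 2) * (Real.exp 6 * μ ^ 11)))) / 5) ^ 5 +
      ((q + 1 : ℝ) * q * (q + 1)) *
        (Real.exp 1 * (((n ^ 510 : ℕ) : ℝ) * ((2 * ((n ^ 479 : ℕ) : ℝ)) * (4 * ((((n ^ 479 : ℕ) : ℝ)) ^ 2 / (q : ℝ) ^ 2) * (Real.exp 6 * μ ^ 11)))) / 7) ^ 7
        ≤ 1 / 8

set_option maxRecDepth 100000 in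
/-- The numbers work for large `n`. -/
theorem selNumOK : ∃ n₀ : ℕ, ∀ n, n₀ ≤ n → SelNumOK n := by
  refine ⟨10^41, fun n hn q hq1 hq2 => ?_⟩
  have hx : (10:ℝ)^41 ≤ (n:ℝ) := by
    have h : ((10 ^ 41 : ℕ) : ℝ) ≤ (n : ℝ) := Nat.cast_le.2 hn
    rwa [Nat.cast_pow, Nat.cast_ofNat] at h
  have hQ1 : (n:ℝ)^1000 ≤ (q:ℝ) := by
    have h : ((n ^ 1000 : ℕ) : ℝ) ≤ (q : ℝ) := Nat.cast_le.2 hq1
    rwa [Nat.cast_pow] at h
  have hQ2 : (q:ℝ) ≤ 2 * (n:ℝ)^1000 := by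
    have h : (q : ℝ) ≤ (((n + 1) ^ 1000 : ℕ) : ℝ) := Nat.cast_le.2 hq2.le
    rw [Nat.cast_pow, Nat.cast_add, Nat.cast_one] at h
    exact h.trans (succ_pow_le hx)
  have hT : ((n ^ 479 : ℕ) : ℝ) = (n:ℝ) ^ 479 := Nat.cast_pow _ _
  have hG : ((n ^ 510 : ℕ) : ℝ) = (n:ℝ) ^ 510 := Nat.cast_pow _ _
  have ht0 : ((n ^ 5 : ℕ) : ℝ) = (n:ℝ) ^ 5 := Nat.cast_pow _ _
  obtain ⟨hμ0, hμle, hμ1, h1296, h32, h80⟩ := real_facts hx hQ1 hQ2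
  have hn1 : 1 ≤ n := le_trans (by norm_num) hn
  refine ⟨((n:ℝ) ^ 479) ^ 2 / (q:ℝ), 10 * ((n ^ 5 : ℕ) : ℝ), n ^ 5, ?_, hμ0, hμ1, ?_,
    mul_nonneg (by norm_num) (Nat.cast_nonneg _), Nat.one_le_pow _ _ hn1, le_rfl, ?_, ?_, ?_, ?_⟩
  · rw [hT]
  · rw [hT]; exact h1296
  · have h' : (((32 * (n ^ 479) ^ 2 : ℕ)) : ℝ) ≤ (q : ℝ) := by
      rw [Nat.cast_mul, Nat.cast_pow, hT]
      exact h32
    exact Nat.cast_le.1 h'
  · have h' : (((80 * (n ^ 479) : ℕ)) : ℝ) ≤ (q : ℝ) := by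
      rw [Nat.cast_mul, hT]
      exact h80
    exact Nat.cast_le.1 h'
  · rw [ht0, hG]
    have ha : n ^ 479 ≤ 12 * (n ^ 479 / 6) := by
      have h12 : 12 ≤ n ^ 479 := by
        calc 12 ≤ n := le_trans (by norm_num) hn
          _ = n^1 := (pow_one n).symm
          _ ≤ n^479 := Nat.pow_le_pow_right hn1 (by norm_num)
      generalize n ^ 479 = a at h12
      omega
    have ha' : (n:ℝ) ^ 479 / 12 ≤ ((n ^ 479 / 6 : ℕ) : ℝ) := by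
      have h' : ((n ^ 479 : ℕ) : ℝ) ≤ ((12 * (n ^ 479 / 6) : ℕ) : ℝ) := Nat.cast_le.2 ha
      rw [Nat.cast_mul, hT] at h'
      have h12 : ((12 : ℕ) : ℝ) = 12 := by norm_num
      rw [h12] at h'
      generalize ((n ^ 479 / 6 : ℕ) : ℝ) = b at h' ⊢
      generalize (n:ℝ) ^ 479 = c at h' ⊢
      linarith
    exact group_part hx hQ1 hQ2 ha'
  · intro ZZ hZZ
    have hZ0 : (0:ℝ) ≤ (ZZ:ℝ) := Nat.cast_nonneg _
    have hZ : (ZZ:ℝ) ≤ 2 * (q:ℝ) := by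
      have h : (ZZ:ℝ) ≤ ((2 * q : ℕ) : ℝ) := Nat.cast_le.2 hZZ
      rwa [Nat.cast_mul, Nat.cast_ofNat] at h
    have hd : 384 * (n:ℝ)^1000 * (1/2:ℝ)^(n^5) ≤ 1 := delta_bound hn
    have := sum_part hx hQ1 hQ2 hZ0 hZ ht0 hd hμ0.le hμle
    unfold safeFail
    rw [ht0, hG, hT]
    exact this

/-- Selection succeeds with probability at least `7/8`. -/
theorem selGood_prob {q n : ℕ} {h : L → P → V} (hn : SelNumOK n) (hq1 : n ^ 1000 ≤ q) (hq2 : q < (n + 1) ^ 1000)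
    (hO : OA q h) (hn1 : 1 ≤ n) (cl : Fin (n ^ 510) → Fin 4 → P)
    (hcl : ∀ g g' j j', cl g j = cl g' j' → g = g' ∧ j = j')
    (Z : Finset (P × V)) (hZline : ∀ ℓ : L, (Z.filter (On h ℓ)).card ≤ n)
    (hZpart : ∀ i : P, (Z.filter fun x => x.1 = i).card ≤ 2 * n ^ 479) (hZcard : Z.card ≤ 2 * q)
    (hZclean : ∀ z ∈ Z, q ≤ 4 * (cleanLines h Z z).card) :
    Pr (fun Γ : Fin (n ^ 510) → GConf (n ^ 479) V => ¬ SelGood h Z cl Γ) ≤ 1 / 8 := by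
  obtain ⟨μ, Lo, t₀, hμ, hμ0, hμ1, hnum, hLo0, ht₁, ht₂, h32, h80, hLo, hsum⟩ := hn q hq1 hq2
  have hT1 : 1 ≤ n ^ 479 := Nat.one_le_pow _ _ hn1
  have hclg : ∀ g, Function.Injective (cl g) := by
    intro g j j' hjj
    exact (hcl g g j j' hjj).2
  have hLo' : ∀ z ∈ Z, ∀ g, (∀ j, z.1 ≠ cl g j) →
      (Lo / ((n ^ 510 : ℕ) : ℝ)) ≤ Pr (fun γ : GConf (n ^ 479) V => Pat h Z (cl g) γ z) := by
    intro z hz g hzg
    refine hLo.trans ?_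
    exact pat_lower hO Z (cl g) (hclg g) z hzg (n ^ 479) (n ^ 479 / 6) (Nat.mul_div_le _ _) h32 h80
      (hZclean z hz)
  exact (selGood_fail hO cl hcl hT1 Z n hZline hZpart μ hμ hμ0 hμ1 hnum Lo hLo0 hLo' t₀ ht₁ ht₂).trans
    (hsum Z.card hZcard)

end Crest.Agent.Ryser
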